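import Mathlib

open Matrix
open scoped ComplexOrder MatrixOrder

namespace Vale.P272.H696

variable {m : Type*} [Fintype m] [DecidableEq m]

/-- `log det A ≤ tr A - n` for a positive definite matrix. -/
lemma log_det_le_trace {A : Matrix m m ℂ} (hA : A.PosDef) :
    Real.log A.det.re ≤ A.trace.re - Fintype.card m := by
  have h1 : A.det.re = ∏ i, hA.1.eigenvalues i := by
    rw [hA.1.det_eq_prod_eigenvalues]
    norm_cast
  have h2 : A.trace.re = ∑ i, hA.1.eigenvalues i := by
    rw [hA.1.trace_eq_sum_eigenvalues]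
    norm_cast
  rw [h1, h2, Real.log_prod (fun i _ => (hA.eigenvalues_pos i).ne')]
  have : (Fintype.card m : ℝ) = ∑ i : m, (1 : ℝ) := by simp
  rw [this, ← Finset.sum_sub_distrib]
  exact Finset.sum_le_sum fun i _ => Real.log_le_sub_one_of_pos (hA.eigenvalues_pos i)

/-- the determinant of a positive definite matrix is real and positive -/
lemma det_eq_re {A : Matrix m m ℂ} (hA : A.PosDef) : A.det = (A.det.re : ℂ) := by
  have h := hA.det_pos
  rw [Complex.lt_def] at h
  apply Complex.ext
  · simp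
  · simp [← h.2]

lemma det_re_pos {A : Matrix m m ℂ} (hA : A.PosDef) : 0 < A.det.re := by
  have h := hA.det_pos
  rw [Complex.lt_def] at h
  simpa using h.1

/-- Klein's inequality for log det. -/
lemma log_det_le {T B : Matrix m m ℂ} (hT : T.PosDef) (hB : B.PosDef) :
    Real.log T.det.re ≤ Real.log B.det.re + (B⁻¹ * T).trace.re - Fintype.card m := by
  have hBi : (B⁻¹).PosDef := hB.inv
  obtain ⟨R, hR⟩ := CStarAlgebra.nonneg_iff_eq_star_mul_self.mp hBi.posSemidef.nonneg
  rw [star_eq_conjTranspose] at hR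
  have hdet : (B⁻¹).det = (Rᴴ).det * R.det := by rw [hR, det_mul]
  have hRdet : R.det ≠ 0 := by
    intro h
    have := hBi.det_pos
    rw [hdet, h, mul_zero] at this
    exact lt_irrefl _ this
  have hRu : IsUnit R := (Matrix.isUnit_iff_isUnit_det R).2 (isUnit_iff_ne_zero.2 hRdet)
  have hC : (R * T * Rᴴ).PosDef := by
    apply hT.mul_mul_conjTranspose_same
    exact Matrix.vecMul_injective_of_isUnit hRu
  have h1 := log_det_le_trace hC
  have h2 : (R * T * Rᴴ).trace = (B⁻¹ * T).trace := by
    rw [Matrix.trace_mul_comm, ← Matrix.mul_assoc, ← hR]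
  have h3 : (R * T * Rᴴ).det = (B⁻¹).det * T.det := by
    rw [det_mul, det_mul, hdet]; ring
  have h4 : (B⁻¹).det.re = (B.det.re)⁻¹ := by
    rw [Matrix.det_nonsing_inv, Ring.inverse_eq_inv', det_eq_re hB, ← Complex.ofReal_inv,
      Complex.ofReal_re, Complex.ofReal_re]
  have h5 : (R * T * Rᴴ).det.re = (B.det.re)⁻¹ * T.det.re := by
    rw [h3, det_eq_re hBi, det_eq_re hT, ← Complex.ofReal_mul, Complex.ofReal_re, h4,
      Complex.ofReal_re]
  rw [h2, h5, Real.log_mul (inv_ne_zero (det_re_pos hB).ne') (det_re_pos hT).ne', Real.log_inv] at h1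
  linarith

/-- the trace of a product of two positive semidefinite matrices is nonnegative -/
lemma trace_mul_nonneg {A B : Matrix m m ℂ} (hA : A.PosSemidef) (hB : B.PosSemidef) :
    0 ≤ (A * B).trace.re := by
  obtain ⟨R, hR⟩ := CStarAlgebra.nonneg_iff_eq_star_mul_self.mp hA.nonneg
  rw [star_eq_conjTranspose] at hR
  have h := (hB.mul_mul_conjTranspose_same R).trace_nonneg
  rw [Matrix.trace_mul_comm, ← Matrix.mul_assoc, ← hR] at h
  exact (Complex.le_def.1 h).1

/-- monotonicity of the determinant -/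
lemma log_det_mono {R S : Matrix m m ℂ} (hR : R.PosDef) (hS : S.PosDef)
    (h : (S - R).PosSemidef) : Real.log R.det.re ≤ Real.log S.det.re := by
  have h1 := log_det_le hR hS
  have h2 := trace_mul_nonneg hS.inv.posSemidef h
  have h3 : S⁻¹ * (S - R) = 1 - S⁻¹ * R := by
    rw [Matrix.mul_sub, Matrix.nonsing_inv_mul S ((Matrix.isUnit_iff_isUnit_det S).1 hS.isUnit)]
  rw [h3, Matrix.trace_sub, Matrix.trace_one] at h2
  simp at h2
  linarith

end Vale.P272.H696
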