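import Vale.Agent.P272.HY.Blocks

/-! P272, block A16: Theorem 1 (`HY.B14`) from the interface props. -/

open scoped Manifold ContDiff ComplexOrder Topology ENNReal
open MeasureTheory Metric Set Filter

set_option linter.all false

noncomputable section

namespace Vale.Agent.P272.HY

open Vale.Agent.P272.K

lemma det_congr_re {n : ℕ} (J H : Matrix (Fin n) (Fin n) ℂ) :
    (J.transpose * H * J.map (starRingEnd ℂ)).det.re = ‖J.det‖ ^ 2 * H.det.re := by
  have h1 : (J.map (starRingEnd ℂ)).det = (starRingEnd ℂ) J.det := by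
    rw [RingHom.map_det]
    rfl
  rw [Matrix.det_mul, Matrix.det_mul, Matrix.det_transpose, h1]
  have h2 : J.det * H.det * (starRingEnd ℂ) J.det = ((‖J.det‖ ^ 2 : ℝ) : ℂ) * H.det := by
    rw [← Complex.normSq_eq_norm_sq, ← Complex.mul_conj]
    ring
  rw [h2, Complex.re_ofReal_mul]

section
variable {n : ℕ} {X : Type} [TopologicalSpace X] [ChartedSpace (Cm n) X]

lemma hermitian_det_pos {w : Chart n X → Cm n → Matrix (Fin n) (Fin n) ℂ} (hw : IsHermitian w)
    {e : Chart n X} {x : X} (hx : At e x) : 0 < (w e (e x)).det.re := by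
  have h := (hw.posDef e x hx).det_pos
  rw [Complex.lt_def] at h
  simpa using h.1

lemma te_congr (w : Chart n X → Cm n → Matrix (Fin n) (Fin n) ℂ) {f g : ℂ → X}
    (h : ∀ z ∈ ball (0 : ℂ) 1, g z = f z) : TE w 1 g = TE w 1 f := by
  unfold TE
  refine setLIntegral_congr_fun measurableSet_ball fun z hz => ?_
  have h1 : g =ᶠ[𝓝 z] f := by
    filter_upwards [isOpen_ball.mem_nhds hz] with ζ hζ using h ζ hζ
  simp only [BR.spd_congr h1]

lemma holD_congr {f g : ℂ → X} (hf : HolD n f)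
    (h : ∀ z ∈ ball (0 : ℂ) 1, g z = f z) : HolD n g := by
  intro z hz
  refine (hf z hz).congr ?_
  filter_upwards [isOpen_ball.mem_nhds hz] with ζ hζ using h ζ hζ

lemma isMaxDisc_congr {w w' : Chart n X → Cm n → Matrix (Fin n) (Fin n) ℂ} {lam : ℝ} {f g : ℂ → X}
    (hf : IsMaxDisc w w' lam f) (h : ∀ z ∈ ball (0 : ℂ) 1, g z = f z) :
    IsMaxDisc w w' lam g := by
  have h0 : g =ᶠ[𝓝 0] f := by
    filter_upwards [isOpen_ball.mem_nhds (mem_ball_self one_pos)] with ζ hζ using h ζ hζ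
  refine ⟨holD_congr hf.holo h, ?_, fun g' hg' h00 hfin => ?_⟩
  · rw [te_congr w' h]; exact hf.fin
  · rw [te_congr w' h, BR.spd_congr h0]
    exact hf.max g' hg' (by rw [h00, h0.self_of_nhds]) hfin

theorem b14_of [T2Space X] [CompactSpace X] [IsManifold 𝓘(ℂ, Cm n) ω X]
    (h12 : S12) (h4 : B4 n X) (h56 : B56 n X) (h9 : B9 n X) (h11 : B11 n X) (h13a : B13a n X)
    (h13 : B13 n X) : B14 n X := by
  intro w hw M hM hbd w' hw' hric e x hx
  rcases Nat.eq_zero_or_pos n with hn | hn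
  · subst hn
    simp
  have hn' : (0 : ℝ) < n := by exact_mod_cast hn
  set lam : ℝ := M / n with hlam
  have hlam0 : 0 < lam := by positivity
  obtain ⟨f, hf0, hf, hTf⟩ := h4 w w' hw hw'.toIsHermitian lam M hlam0 hbd x
  obtain ⟨g, hgc, hgf⟩ := h56 w w' hw hw'.toIsHermitian lam M hlam0 hbd f hf
  have hg := isMaxDisc_congr hf hgf
  have hg0 : g 0 = x := by rw [hgf 0 (mem_ball_self one_pos), hf0]
  have hTg : lam * (TE w' 1 g).toReal ≤ M := by rw [te_congr w' hgf]; exact hTf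
  obtain ⟨δ, F, hF⟩ := h9 g hgc hg.holo
  have hF0 : F 0 0 = x := by rw [hF.zero 0 (mem_closedBall_self zero_le_one), hg0]
  have hext := h11 w w' hw hw' lam δ g F hlam0 hg hF
  obtain ⟨hPc, hPpd⟩ := h13a w' hw'.toIsHermitian δ g F hF
  have hQpd := (h13a w hw δ g F hF).2 0 (mem_closedBall_self zero_le_one)
  have hS := h12 n (pbM w' F) (pbM w F 0) lam (hPc.mono sphere_subset_closedBall)
    (fun z hz => hPpd z (sphere_subset_closedBall hz)) hQpd hlam0 hext
  have hJ := h13 w' hw'.toIsHermitian hric δ g F hF hg.fin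
  have hT : (TE w' 1 g).toReal ≤ n := by
    have h1 : M = lam * n := by rw [hlam]; field_simp
    rw [h1] at hTg
    exact le_of_mul_le_mul_left hTg hlam0
  have key : Real.log (pbM w F 0).det.re ≤
      n * Real.log lam + Real.log (pbM w' F 0).det.re + n := by linarith
  -- pass to the chart at `x`
  subst hF0
  set e0 : Chart n X := chartAt (Cm n) (F 0 0) with he0
  have hx0 : At e0 (F 0 0) := ⟨chart_mem_atlas _ _, mem_chart_source _ _⟩
  have hd0 := hermitian_det_pos hw hx0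
  have hd0' := hermitian_det_pos hw'.toIsHermitian hx0
  have hd := hermitian_det_pos hw hx
  have hd' := hermitian_det_pos hw'.toIsHermitian hx
  have hp1 : (pbM w F 0).det.re = ‖(tj F e0 0 0).det‖ ^ 2 * (w e0 (e0 (F 0 0))).det.re :=
    det_congr_re _ _
  have hp2 : (pbM w' F 0).det.re = ‖(tj F e0 0 0).det‖ ^ 2 * (w' e0 (e0 (F 0 0))).det.re :=
    det_congr_re _ _
  have hq1 : (w e (e (F 0 0))).det.re =
      ‖(jacM e e0 (F 0 0)).det‖ ^ 2 * (w e0 (e0 (F 0 0))).det.re := by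
    rw [hw.change e e0 (F 0 0) hx hx0]; exact det_congr_re _ _
  have hq2 : (w' e (e (F 0 0))).det.re =
      ‖(jacM e e0 (F 0 0)).det‖ ^ 2 * (w' e0 (e0 (F 0 0))).det.re := by
    rw [hw'.toIsHermitian.change e e0 (F 0 0) hx hx0]; exact det_congr_re _ _
  have htj : 0 < ‖(tj F e0 0 0).det‖ ^ 2 := by
    have h1 := hF.inv 0 (mem_closedBall_self zero_le_one) e0 (by rw [hg0]; exact hx0)
    have := norm_pos_iff.2 h1
    positivity
  have hjac : 0 < ‖(jacM e e0 (F 0 0)).det‖ ^ 2 := by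
    by_contra hcon
    have h1 : ‖(jacM e e0 (F 0 0)).det‖ ^ 2 = 0 := le_antisymm (not_lt.1 hcon) (by positivity)
    rw [hq1, h1, zero_mul] at hd
    exact lt_irrefl _ hd
  rw [hp1, hp2, Real.log_mul htj.ne' hd0.ne', Real.log_mul htj.ne' hd0'.ne'] at key
  rw [hq1, hq2, mul_left_comm]
  refine mul_le_mul_of_nonneg_left ?_ hjac.le
  have hc : 0 < ((n : ℝ) / (Real.exp 1 * M)) ^ n := by positivity
  rw [← Real.log_le_log_iff (mul_pos hc hd0) hd0', Real.log_mul hc.ne' hd0.ne', Real.log_pow,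
    Real.log_div hn'.ne' (by positivity), Real.log_mul (Real.exp_pos 1).ne' hM.ne', Real.log_exp]
  rw [hlam, Real.log_div hM.ne' hn'.ne'] at key
  nlinarith

end

end Vale.Agent.P272.HY
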