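import Vale.Agent.P272.H696.Szego2
import Vale.Agent.P272.HY.Blocks

/-! P272, block A13: the matrix Szego inequality in the frozen form `HY.S12`. -/

open Matrix Complex MeasureTheory Metric
open scoped ComplexOrder Real MatrixOrder

set_option linter.all false

namespace Vale.Agent.P272.HY

open Vale.Agent.P272.K

lemma hq_eq {n : ℕ} (H : Matrix (Fin n) (Fin n) ℂ) (v : Cm n) :
    hq H v = (star v ⬝ᵥ Hᵀ *ᵥ v).re := by
  unfold hq quad dotProduct mulVec dotProduct
  congr 1
  rw [Finset.sum_comm]
  refine Finset.sum_congr rfl fun i _ => ?_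
  rw [Finset.mul_sum]
  refine Finset.sum_congr rfl fun j _ => ?_
  simp only [Pi.star_apply, cj, RCLike.star_def, transpose_apply]
  ring

/-- **S12** -/
theorem s12 : S12 := by
  intro n P Q lam hP hpd hQ hlam H
  have ht : Continuous (fun M : Matrix (Fin n) (Fin n) ℂ => Mᵀ) := continuous_id.matrix_transpose
  have hPt : ContinuousOn (fun z => (P z)ᵀ) (sphere (0 : ℂ) 1) := ht.comp_continuousOn hP
  have h := Vale.P272.H696.matrix_szego_circle (m := Fin n) (P := fun z => (P z)ᵀ) (Q := Qᵀ) hPt
    (fun z hz => (hpd z hz).transpose) hQ.transpose hlam (by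
      intro p
      have h1 := H p
      rw [hq_eq] at h1
      refine h1.trans (le_of_eq ?_)
      congr 2
      funext z
      exact hq_eq _ _)
  simpa using h

end Vale.Agent.P272.HY
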