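import Vale.Agent.P272.H696.Szego

/-! P272, S12A: the minimal polynomial (Schur complement) form of the matrix Szego theorem. -/

open Matrix Complex MeasureTheory Metric
open scoped ComplexOrder Real MatrixOrder

set_option linter.all false

namespace Vale.P272.H696

variable {m : Type*} [Fintype m] [DecidableEq m]

lemma toep_one (N : ℕ) : toep (fun _ => (1 : Matrix m m ℂ)) N = 1 := by
  ext ⟨a, j⟩ ⟨b, k⟩
  rw [toep_apply]
  simp only
  by_cases hab : a = b
  · subst hab
    simp only [one_apply_eq, mul_one]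
    rw [avg_ez]
    by_cases hjk : j = k
    · subst hjk; simp
    · rw [if_neg (fun h => hjk (Fin.ext h)), one_apply_ne (by simp [hjk])]
  · rw [one_apply_ne hab, one_apply_ne (by simp [hab])]
    simp

lemma continuous_tvec {N : ℕ} (x : m × Fin N → ℂ) : Continuous (tvec x) := by
  have h2 := continuous_ez
  unfold tvec; fun_prop

lemma continuous_form {P : ℝ → Matrix m m ℂ} (hP : Continuous P) {N : ℕ}
    (x y : m × Fin N → ℂ) : Continuous fun t => star (tvec x t) ⬝ᵥ P t *ᵥ tvec y t :=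
  ((continuous_tvec x).star).dotProduct (hP.matrix_mulVec (continuous_tvec y))

lemma toep_posDef {P : ℝ → Matrix m m ℂ} (hP : Continuous P) (hpd : ∀ t, (P t).PosDef) (N : ℕ) :
    (toep P N).PosDef := by
  have hherm := toep_isHermitian (fun t => (hpd t).1) N
  refine PosDef.of_dotProduct_mulVec_pos hherm fun {x} hx => ?_
  have hpi : (0 : ℝ) < 2 * π := by positivity
  -- a point where the trigonometric polynomial does not vanish
  obtain ⟨c, hc, hcne⟩ : ∃ c ∈ Set.Icc (0 : ℝ) (2 * π), tvec x c ≠ 0 := by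
    by_contra hcon
    push Not at hcon
    apply hx
    have h1 := toep_form (P := fun _ => (1 : Matrix m m ℂ)) continuous_const x x
    rw [toep_one, one_mulVec] at h1
    have h2 : ∫ t in (0 : ℝ)..2 * π, star (tvec x t) ⬝ᵥ (1 : Matrix m m ℂ) *ᵥ tvec x t = 0 := by
      rw [intervalIntegral.integral_congr (g := fun _ => (0 : ℂ))]
      · simp
      · intro t ht
        rw [Set.uIcc_of_le hpi.le] at ht
        simp only
        rw [hcon t ht]
        simp
    rw [h2, mul_zero] at h1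
    exact dotProduct_star_self_eq_zero.1 h1
  have hcont := continuous_form hP x x
  have h3 : 0 < ∫ t in (0 : ℝ)..2 * π, (star (tvec x t) ⬝ᵥ P t *ᵥ tvec x t).re := by
    refine intervalIntegral.integral_pos hpi (Complex.continuous_re.comp hcont).continuousOn
      (fun t _ => ?_) ⟨c, hc, ?_⟩
    · exact (hpd t).posSemidef.re_dotProduct_nonneg _
    · exact (hpd c).re_dotProduct_pos hcne
  have h4 : (star x ⬝ᵥ toep P N *ᵥ x).re =
      (2 * π)⁻¹ * ∫ t in (0 : ℝ)..2 * π, (star (tvec x t) ⬝ᵥ P t *ᵥ tvec x t).re := by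
    rw [toep_form hP, ← Complex.ofReal_inv, Complex.re_ofReal_mul]
    congr 1
    exact (intervalIntegral.intervalIntegral_re (hcont.intervalIntegrable _ _)).symm
  rw [Complex.lt_def]
  constructor
  · rw [h4]; simp only [Complex.zero_re]; positivity
  · exact (hherm.im_star_dotProduct_mulVec_self x).symm

/-- asymptotic upper bound of the Toeplitz determinants -/
lemma log_det_toep_upper {P : ℝ → Matrix m m ℂ} (hP : Continuous P)
    (hper : Function.Periodic P (2 * π)) (hpd : ∀ t, (P t).PosDef) {ε : ℝ} (hε : 0 < ε) :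
    ∃ N : ℕ, 0 < N ∧ Real.log (toep P N).det.re ≤
      N * ((2 * π)⁻¹ * (∫ t in (0 : ℝ)..2 * π, Real.log (P t).det.re) + ε) := by
  have hε3 : 0 < ε / 3 := by positivity
  obtain ⟨C, hC, hbd⟩ := trace_bound hP hpd hper hε3
  have hg : Continuous fun t => Real.log (P t).det.re :=
    (Complex.continuous_re.comp hP.matrix_det).log fun t => (det_re_pos (hpd t)).ne'
  obtain ⟨N₀, hN₀⟩ := riemann_sum hg hε3
  obtain ⟨N₁, hN₁⟩ := exists_nat_gt (4 * C / (ε / 3))
  set N := N₀ + N₁ + 1 with hN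
  have hNpos : 0 < N := by omega
  refine ⟨N, hNpos, ?_⟩
  have hup := toep_upper hP hpd hC hbd hNpos (toep_posDef hP hpd N)
  have hr := hN₀ N (by omega) hNpos
  have h1 : 4 * C ≤ N * (ε / 3) := by
    rw [div_lt_iff₀ hε3] at hN₁
    have : (N₁ : ℝ) ≤ N := by
      rw [hN]; push_cast
      have : (0 : ℝ) ≤ N₀ := by positivity
      linarith
    nlinarith
  linarith

lemma exists_small_step {P : ℝ → Matrix m m ℂ} (hP : Continuous P)
    (hper : Function.Periodic P (2 * π)) (hpd : ∀ t, (P t).PosDef) {ε : ℝ} (hε : 0 < ε) :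
    ∃ N : ℕ, Real.log (toep P (N + 1)).det.re - Real.log (toep P N).det.re ≤
      (2 * π)⁻¹ * (∫ t in (0 : ℝ)..2 * π, Real.log (P t).det.re) + ε := by
  by_contra hcon
  push Not at hcon
  set μ := (2 * π)⁻¹ * (∫ t in (0 : ℝ)..2 * π, Real.log (P t).det.re) with hμ
  obtain ⟨N, hN, hup⟩ := log_det_toep_upper hP hper hpd (half_pos hε)
  have hind : ∀ k : ℕ, k * (μ + ε) ≤ Real.log (toep P k).det.re := by
    intro k
    induction k with
    | zero =>
      have : IsEmpty (m × Fin 0) := ⟨fun x => x.2.elim0⟩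
      have h0 : (toep P 0).det = 1 := det_isEmpty
      rw [h0]; simp
    | succ k ih =>
      have := hcon k
      push_cast
      linarith
  have h1 := hind N
  have hN' : (0 : ℝ) < N := by exact_mod_cast hN
  have h2 : (N : ℝ) * (μ + ε) ≤ N * (μ + ε / 2) := h1.trans hup
  have h3 := le_of_mul_le_mul_left h2 hN'
  linarith

/-- **S12A**: minimal polynomial form of the matrix Szego theorem. -/
theorem s12a_line {P : ℝ → Matrix m m ℂ} (hP : Continuous P)
    (hper : Function.Periodic P (2 * π)) (hpd : ∀ t, (P t).PosDef) {ε : ℝ} (hε : 0 < ε) :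
    ∃ (A : Matrix m m (Polynomial ℂ)) (G : Matrix m m ℂ),
      (∀ i j, (A i j).eval 0 = if i = j then 1 else 0) ∧ G.PosDef ∧
      (∀ ξ η : m → ℂ, star ξ ⬝ᵥ G *ᵥ η = ((2 * π : ℝ) : ℂ)⁻¹ * ∫ t in (0 : ℝ)..2 * π,
        star ((A.map (Polynomial.eval (ez t))) *ᵥ ξ) ⬝ᵥ P t *ᵥ
          ((A.map (Polynomial.eval (ez t))) *ᵥ η)) ∧
      Real.log G.det.re ≤ (2 * π)⁻¹ * (∫ t in (0 : ℝ)..2 * π, Real.log (P t).det.re) + ε := by
  obtain ⟨N, hstep⟩ := exists_small_step hP hper hpd hε
  obtain ⟨A, B, hAB⟩ := toep_split (fun t => (hpd t).1) N (P := P)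
  set D := toep P N with hD
  have hDpd : D.PosDef := toep_posDef hP hpd N
  have hDu : IsUnit D := hDpd.isUnit
  have hDdet : IsUnit D.det := (Matrix.isUnit_iff_isUnit_det D).1 hDu
  have : Invertible D := hDu.invertible
  have hMpd : (fromBlocks A B Bᴴ D).PosDef := by
    rw [← hAB]
    exact (toep_posDef hP hpd (N + 1)).submatrix (splitEquiv m N).injective
  set S := A - B * D⁻¹ * Bᴴ with hS
  have hdet : (fromBlocks A B Bᴴ D).det = D.det * S.det := by
    rw [det_fromBlocks₂₂, invOf_eq_nonsing_inv]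
  have hdetT : (fromBlocks A B Bᴴ D).det = (toep P (N + 1)).det := by
    rw [← hAB, det_submatrix_equiv_self]
  have hSpsd : S.PosSemidef := (Matrix.PosDef.fromBlocks₂₂ A B hDpd).1 hMpd.posSemidef
  have hSpd : S.PosDef := by
    rw [hSpsd.posDef_iff_det_ne_zero]
    intro h
    have h2 := hMpd.det_pos
    rw [hdet, h, mul_zero] at h2
    exact lt_irrefl _ h2
  have hlog : Real.log S.det.re = Real.log (toep P (N + 1)).det.re - Real.log D.det.re := by
    have h1 : (toep P (N + 1)).det.re = D.det.re * S.det.re := by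
      rw [← hdetT, hdet, det_eq_re hDpd, det_eq_re hSpd, ← Complex.ofReal_mul]
      simp
    rw [h1, Real.log_mul (det_re_pos hDpd).ne' (det_re_pos hSpd).ne']
    ring
  set Y : Matrix (m × Fin N) m ℂ := -(D⁻¹ * Bᴴ) with hY
  -- the polynomial matrix
  obtain ⟨Ap, hAp⟩ : ∃ Ap : Matrix m m (Polynomial ℂ), ∀ i j, Ap i j =
    Polynomial.C (if i = j then 1 else 0) +
      ∑ k : Fin N, Polynomial.C (Y (i, k) j) * Polynomial.X ^ ((k : ℕ) + 1) :=
    ⟨Matrix.of fun i j => Polynomial.C (if i = j then 1 else 0) +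
      ∑ k : Fin N, Polynomial.C (Y (i, k) j) * Polynomial.X ^ ((k : ℕ) + 1), fun i j => rfl⟩
  have hApe : ∀ (z : ℂ) (i j : m), (Ap.map (Polynomial.eval z)) i j =
      (if i = j then 1 else 0) + ∑ k : Fin N, Y (i, k) j * z ^ ((k : ℕ) + 1) := by
    intro z i j
    rw [map_apply, hAp, Polynomial.eval_add, Polynomial.eval_C, Polynomial.eval_finsetSum]
    simp only [Polynomial.eval_mul, Polynomial.eval_C, Polynomial.eval_pow, Polynomial.eval_X]
  -- the extended vector
  let V : (m → ℂ) → (m × Fin (N + 1) → ℂ) := fun ξ =>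
    (Sum.elim ξ (Y *ᵥ ξ)) ∘ (splitEquiv m N).symm
  have hV0 : ∀ ξ a, V ξ (a, 0) = ξ a := fun ξ a => rfl
  have hVs : ∀ ξ a (k : Fin N), V ξ (a, k.succ) = (Y *ᵥ ξ) (a, k) := fun ξ a k => rfl
  have htv : ∀ ξ t, tvec (V ξ) t = (Ap.map (Polynomial.eval (ez t))) *ᵥ ξ := by
    intro ξ t
    funext a
    have e1 : tvec (V ξ) t a = ξ a + ∑ k : Fin N, ez t ^ ((k : ℕ) + 1) * ∑ j, Y (a, k) j * ξ j := by
      simp only [tvec, Fin.sum_univ_succ, hV0, hVs, Fin.val_zero, pow_zero, one_mul, Fin.val_succ]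
      rfl
    have e2 : ((Ap.map (Polynomial.eval (ez t))) *ᵥ ξ) a =
        ∑ j, ((if a = j then 1 else 0) + ∑ k : Fin N, Y (a, k) j * ez t ^ ((k : ℕ) + 1)) * ξ j := by
      simp only [mulVec, dotProduct, hApe]
    rw [e1, e2]
    simp only [add_mul, Finset.sum_add_distrib, Finset.sum_mul, Finset.mul_sum]
    congr 1
    · simp
    · rw [Finset.sum_comm]
      refine Finset.sum_congr rfl fun j _ => Finset.sum_congr rfl fun k _ => ?_
      ring
  refine ⟨Ap, S, ?_, hSpd, ?_, ?_⟩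
  · intro i j
    have := hApe 0 i j
    rw [map_apply] at this
    rw [this]
    simp
  · intro ξ η
    have h1 := toep_form hP (V ξ) (V η)
    simp_rw [htv] at h1
    rw [← h1]
    -- compute the quadratic form
    have h2 : star (V ξ) ⬝ᵥ toep P (N + 1) *ᵥ (V η) =
        star (Sum.elim ξ (Y *ᵥ ξ)) ⬝ᵥ (fromBlocks A B Bᴴ D) *ᵥ (Sum.elim η (Y *ᵥ η)) := by
      rw [← hAB, submatrix_mulVec_equiv, ← comp_equiv_symm_dotProduct]
      rfl
    have h3 : (fromBlocks A B Bᴴ D) *ᵥ (Sum.elim η (Y *ᵥ η)) = Sum.elim (S *ᵥ η) 0 := by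
      rw [fromBlocks_mulVec]
      have e1 : (Sum.elim η (Y *ᵥ η)) ∘ Sum.inl = η := rfl
      have e2 : (Sum.elim η (Y *ᵥ η)) ∘ Sum.inr = Y *ᵥ η := rfl
      rw [e1, e2]
      congr 1
      · rw [hS, hY, sub_mulVec, neg_mulVec, mulVec_neg, mulVec_mulVec, ← Matrix.mul_assoc,
          sub_eq_add_neg]
      · rw [hY, neg_mulVec, mulVec_neg, mulVec_mulVec, ← Matrix.mul_assoc,
          Matrix.mul_nonsing_inv _ hDdet, Matrix.one_mul, add_neg_cancel]
    have h4 : star (Sum.elim ξ (Y *ᵥ ξ)) = Sum.elim (star ξ) (star (Y *ᵥ ξ)) := by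
      ext i; cases i <;> rfl
    rw [h2, h3, h4, sumElim_dotProduct_sumElim, dotProduct_zero, add_zero]
  · rw [hlog]; exact hstep

end Vale.P272.H696
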