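import Vale.Agent.P272.H696.S12A
import Vale.Agent.P272.H696.S12

/-! P272, S12A in circle average form and in the `hq` form of `HY`. -/

open Matrix Complex MeasureTheory Metric
open scoped ComplexOrder Real MatrixOrder

set_option linter.all false

namespace Vale.P272.H696

/-- **S12A**, circle average form -/
theorem s12a_circle {m : Type*} [Fintype m] [DecidableEq m] {P : ℂ → Matrix m m ℂ}
    (hP : ContinuousOn P (sphere (0 : ℂ) 1)) (hpd : ∀ z ∈ sphere (0 : ℂ) 1, (P z).PosDef)
    {ε : ℝ} (hε : 0 < ε) :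
    ∃ (A : Matrix m m (Polynomial ℂ)) (G : Matrix m m ℂ),
      (∀ i j, (A i j).eval 0 = if i = j then 1 else 0) ∧ G.PosDef ∧
      (∀ ξ : m → ℂ, (star ξ ⬝ᵥ G *ᵥ ξ).re =
        Real.circleAverage (fun z => (star ((A.map (Polynomial.eval z)) *ᵥ ξ) ⬝ᵥ P z *ᵥ
          ((A.map (Polynomial.eval z)) *ᵥ ξ)).re) 0 1) ∧
      Real.log G.det.re ≤ Real.circleAverage (fun z => Real.log (P z).det.re) 0 1 + ε := by
  have hcm : ∀ t : ℝ, circleMap 0 1 t = ez t := by
    intro t
    simp [circleMap, ez]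
  have hmem : ∀ t : ℝ, ez t ∈ sphere (0 : ℂ) 1 := by
    intro t
    simp [norm_ez]
  have hc : Continuous fun t : ℝ => P (ez t) :=
    hP.comp_continuous continuous_ez hmem
  have hper : Function.Periodic (fun t : ℝ => P (ez t)) (2 * π) := by
    intro t
    have : ez (t + 2 * π) = ez t := by
      unfold ez
      have h := Complex.exp_periodic (t * I)
      rw [← h]
      congr 1
      push_cast
      ring
    simp only [this]
  obtain ⟨A, G, hA0, hG, hform, hlog⟩ := s12a_line hc hper (fun t => hpd _ (hmem t)) hε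
  refine ⟨A, G, hA0, hG, fun ξ => ?_, ?_⟩
  · rw [hform ξ ξ, ← Complex.ofReal_inv, Complex.re_ofReal_mul, Real.circleAverage]
    simp only [hcm, smul_eq_mul]
    congr 1
    have hAc : Continuous fun t => (A.map (Polynomial.eval (ez t))) *ᵥ ξ := by
      refine continuous_pi fun i => ?_
      simp only [mulVec, dotProduct, map_apply]
      refine continuous_finsetSum _ fun j _ => ?_
      exact ((A i j).continuous.comp continuous_ez).mul continuous_const
    have hcc : Continuous fun t => star ((A.map (Polynomial.eval (ez t))) *ᵥ ξ) ⬝ᵥ P (ez t) *ᵥ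
          ((A.map (Polynomial.eval (ez t))) *ᵥ ξ) :=
      (hAc.star).dotProduct (hc.matrix_mulVec hAc)
    exact (intervalIntegral.intervalIntegral_re (hcc.intervalIntegrable _ _)).symm
  · refine hlog.trans (le_of_eq ?_)
    rw [Real.circleAverage]
    simp only [hcm, smul_eq_mul]

end Vale.P272.H696

namespace Vale.Agent.P272.HY

open Vale.Agent.P272.K

/-- **S12A** -/
theorem s12a {n : ℕ} {P : ℂ → Matrix (Fin n) (Fin n) ℂ}
    (hP : ContinuousOn P (sphere (0 : ℂ) 1)) (hpd : ∀ z ∈ sphere (0 : ℂ) 1, (P z).PosDef)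
    {ε : ℝ} (hε : 0 < ε) :
    ∃ (A : Matrix (Fin n) (Fin n) (Polynomial ℂ)) (G : Matrix (Fin n) (Fin n) ℂ),
      (∀ i j, (A i j).eval 0 = if i = j then 1 else 0) ∧ G.PosDef ∧
      (∀ ξ : Cm n, hq G ξ =
        Real.circleAverage (fun z => hq (P z) (fun i => ∑ j, (A i j).eval z * ξ j)) 0 1) ∧
      Real.log G.det.re ≤ Real.circleAverage (fun z => Real.log (P z).det.re) 0 1 + ε := by
  have ht : Continuous (fun M : Matrix (Fin n) (Fin n) ℂ => Mᵀ) := continuous_id.matrix_transpose
  have hPt : ContinuousOn (fun z => (P z)ᵀ) (sphere (0 : ℂ) 1) := ht.comp_continuousOn hP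
  obtain ⟨A, G, hA0, hG, hform, hlog⟩ := Vale.P272.H696.s12a_circle (m := Fin n)
    (P := fun z => (P z)ᵀ) hPt (fun z hz => (hpd z hz).transpose) hε
  refine ⟨A, Gᵀ, hA0, hG.transpose, fun ξ => ?_, ?_⟩
  · rw [hq_eq, transpose_transpose, hform ξ]
    congr 1
    funext z
    rw [hq_eq]
    rfl
  · simpa using hlog

end Vale.Agent.P272.HY
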