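import Vale.Agent.P272.H696.Upper

open Matrix Complex MeasureTheory
open scoped ComplexOrder Real MatrixOrder

namespace Vale.P272.H696

variable {m : Type*} [Fintype m] [DecidableEq m]

lemma continuous_inv_matrix {X : Type*} [TopologicalSpace X] {P : X → Matrix m m ℂ}
    (hP : Continuous P) (hpd : ∀ t, (P t).PosDef) : Continuous fun t => (P t)⁻¹ := by
  simp_rw [Matrix.inv_def, Ring.inverse_eq_inv']
  exact (hP.matrix_det.inv₀ fun t => (hpd t).det_pos.ne').smul hP.matrix_adjugate

lemma per_of_ez {P : ℝ → Matrix m m ℂ} (hper : Function.Periodic P (2 * π)) {s t : ℝ}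
    (h : ez s = ez t) : P s = P t := by
  unfold ez at h
  rw [Complex.exp_eq_exp_iff_exists_int] at h
  obtain ⟨n, hn⟩ := h
  have h1 : (s : ℂ) = ((t + n * (2 * π) : ℝ) : ℂ) := by
    have h2 : ((s : ℂ) - (t + n * (2 * π))) * I = 0 := by linear_combination hn
    have h3 := (mul_eq_zero.1 h2).resolve_right I_ne_zero
    push_cast
    linear_combination h3
  have h2 : s = t + n * (2 * π) := by exact_mod_cast h1
  rw [h2]
  exact hper.int_mul n t

/-- compactness: `tr (P(θ)⁻¹ P(t)) ≤ n + ε + C |e^{it} - e^{iθ}|²` -/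
lemma trace_bound {P : ℝ → Matrix m m ℂ} (hP : Continuous P) (hpd : ∀ t, (P t).PosDef)
    (hper : Function.Periodic P (2 * π)) {ε : ℝ} (hε : 0 < ε) :
    ∃ C : ℝ, 0 ≤ C ∧ ∀ θ ∈ Set.Icc (0 : ℝ) (2 * π), ∀ t ∈ Set.Icc (0 : ℝ) (2 * π),
      ((P θ)⁻¹ * P t).trace.re ≤ Fintype.card m + ε + C * ‖ez t - ez θ‖ ^ 2 := by
  set F : ℝ × ℝ → ℝ := fun p => ((P p.1)⁻¹ * P p.2).trace.re with hF
  have hFc : Continuous F := by
    have h1 := (continuous_inv_matrix hP hpd).comp continuous_fst (X := ℝ × ℝ)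
    have h2 := hP.comp continuous_snd (X := ℝ × ℝ)
    exact Complex.continuous_re.comp ((h1.matrix_mul h2).matrix_trace)
  set g : ℝ × ℝ → ℝ := fun p => ‖ez p.2 - ez p.1‖ ^ 2 with hg
  have hgc : Continuous g := by
    have := continuous_ez
    fun_prop
  have hK : IsCompact (Set.Icc (0 : ℝ) (2 * π) ×ˢ Set.Icc (0 : ℝ) (2 * π)) :=
    isCompact_Icc.prod isCompact_Icc
  have hS : IsCompact ((Set.Icc (0 : ℝ) (2 * π) ×ˢ Set.Icc (0 : ℝ) (2 * π)) ∩
      {p | Fintype.card m + ε ≤ F p}) :=
    hK.inter_right (isClosed_le continuous_const hFc)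
  obtain ⟨M, hM⟩ := hK.exists_bound_of_continuousOn hFc.continuousOn
  rcases Set.eq_empty_or_nonempty ((Set.Icc (0 : ℝ) (2 * π) ×ˢ Set.Icc (0 : ℝ) (2 * π)) ∩
      {p | Fintype.card m + ε ≤ F p}) with hemp | hne
  · refine ⟨0, le_rfl, fun θ hθ t ht => ?_⟩
    by_contra hcon
    push Not at hcon
    have : ((θ, t) : ℝ × ℝ) ∈ ((Set.Icc (0 : ℝ) (2 * π) ×ˢ Set.Icc (0 : ℝ) (2 * π)) ∩
      {p | Fintype.card m + ε ≤ F p}) := by
      refine ⟨⟨hθ, ht⟩, ?_⟩
      simp only [Set.mem_ofPred_eq, hF]
      linarith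
    rw [hemp] at this
    exact this
  · obtain ⟨p₀, hp₀, hmin⟩ := hS.exists_isMinOn hne hgc.continuousOn
    have hgpos : 0 < g p₀ := by
      have h1 : 0 ≤ g p₀ := by simp only [hg]; positivity
      rcases h1.lt_or_eq with h | h
      · exact h
      · exfalso
        have h2 : ez p₀.2 = ez p₀.1 := by
          simp only [hg] at h
          have h3 := pow_eq_zero_iff (two_ne_zero) |>.1 h.symm
          exact sub_eq_zero.1 (norm_eq_zero.1 h3)
        have h3 := per_of_ez hper h2
        have h4 : F p₀ = Fintype.card m := by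
          simp only [hF]
          rw [h3, Matrix.nonsing_inv_mul _ ((Matrix.isUnit_iff_isUnit_det _).1 (hpd p₀.1).isUnit),
            trace_one]
          simp
        have h5 := hp₀.2
        simp only [Set.mem_ofPred_eq] at h5
        linarith
    have hM0 : 0 ≤ M := (norm_nonneg _).trans (hM p₀ hp₀.1)
    refine ⟨M / g p₀, by positivity, fun θ hθ t ht => ?_⟩
    by_cases hcase : Fintype.card m + ε ≤ F (θ, t)
    · have h1 : g p₀ ≤ g (θ, t) := hmin ⟨⟨hθ, ht⟩, hcase⟩
      have h2 : F (θ, t) ≤ M := (le_abs_self _).trans (hM (θ, t) ⟨hθ, ht⟩)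
      have h3 : M ≤ M / g p₀ * g (θ, t) := by
        rw [div_mul_eq_mul_div, le_div_iff₀ hgpos]
        exact mul_le_mul_of_nonneg_left h1 hM0
      have h4 : (0 : ℝ) ≤ Fintype.card m := by positivity
      calc ((P θ)⁻¹ * P t).trace.re = F (θ, t) := rfl
        _ ≤ M / g p₀ * g (θ, t) := h2.trans h3
        _ ≤ Fintype.card m + ε + M / g p₀ * g (θ, t) := by linarith
    · push Not at hcase
      have h1 : 0 ≤ M / g p₀ * g (θ, t) := by
        simp only [hg]; positivity
      calc ((P θ)⁻¹ * P t).trace.re = F (θ, t) := rfl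
        _ ≤ Fintype.card m + ε + M / g p₀ * g (θ, t) := by linarith

/-- **Upper bound for the block Toeplitz determinants.** -/
theorem toep_upper {P : ℝ → Matrix m m ℂ} (hP : Continuous P) (hpd : ∀ t, (P t).PosDef)
    {ε C : ℝ} (hC : 0 ≤ C)
    (hbd : ∀ θ ∈ Set.Icc (0 : ℝ) (2 * π), ∀ t ∈ Set.Icc (0 : ℝ) (2 * π),
      ((P θ)⁻¹ * P t).trace.re ≤ Fintype.card m + ε + C * ‖ez t - ez θ‖ ^ 2)
    {N : ℕ} (hN : 0 < N) (hT : (toep P N).PosDef) :
    Real.log (toep P N).det.re ≤
      ∑ j : Fin N, Real.log (P (node N j)).det.re + N * ε + 4 * C := by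
  set U := dft m N with hU
  have hUU := dft_unitary (m := m) hN
  rw [← hU] at hUU
  have hUu : IsUnit U := by
    rw [Matrix.isUnit_iff_isUnit_det]
    have h := congrArg det hUU
    rw [det_mul, det_one] at h
    rw [isUnit_iff_ne_zero]
    intro h0
    rw [h0, mul_zero] at h
    exact zero_ne_one h
  have hT' : (Uᴴ * toep P N * U).PosDef :=
    hT.conjTranspose_mul_mul_same (Matrix.mulVec_injective_of_isUnit hUu)
  have hdet : (Uᴴ * toep P N * U).det = (toep P N).det := by
    rw [det_mul, det_mul, mul_right_comm, ← det_mul, hUU, det_one, one_mul]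
  set B := blockDiagonal fun j : Fin N => P (node N j) with hB
  have hBpd : B.PosDef := blockDiagonal_posDef fun j => hpd _
  have h1 := log_det_le hT' hBpd
  rw [hdet] at h1
  have h2 : Real.log B.det.re = ∑ j : Fin N, Real.log (P (node N j)).det.re := by
    rw [hB, det_blockDiagonal]
    have h3 : (∏ k : Fin N, (P (node N k)).det) = ((∏ k : Fin N, (P (node N k)).det.re : ℝ) : ℂ) := by
      push_cast
      exact Finset.prod_congr rfl fun k _ => det_eq_re (hpd _)
    rw [h3, Complex.ofReal_re, Real.log_prod]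
    intro k _
    exact (det_re_pos (hpd _)).ne'
  have hnode : ∀ j : Fin N, node N j ∈ Set.Icc (0 : ℝ) (2 * π) := by
    intro j
    unfold node
    have hN' : (0 : ℝ) < N := by exact_mod_cast hN
    constructor
    · positivity
    · rw [div_le_iff₀ hN']
      have : ((j : ℕ) : ℝ) ≤ N := by exact_mod_cast j.2.le
      nlinarith [Real.pi_pos]
  have h4 : (B⁻¹ * (Uᴴ * toep P N * U)).trace.re ≤
      ∑ j : Fin N, (Fintype.card m + ε + C * (4 / N)) := by
    rw [hB, blockDiagonal_inv fun j => hpd _, trace_blockDiagonal_mul, Complex.re_sum]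
    refine Finset.sum_le_sum fun j _ => ?_
    simp_rw [hU, dft_block hP]
    have hPc : ∀ a b, Continuous fun t => P t a b := fun a b => continuous_entry hP a b
    have hdk := continuous_dk N (node N j)
    have h5 : ∑ a, ∑ b, (P (node N j))⁻¹ a b * (((2 * π : ℝ) : ℂ)⁻¹ * ∫ t in (0 : ℝ)..2 * π,
        ((‖dk N (node N j) t‖ ^ 2 : ℝ) : ℂ) * P t b a) =
        ((2 * π : ℝ) : ℂ)⁻¹ * ∫ t in (0 : ℝ)..2 * π,
          ((‖dk N (node N j) t‖ ^ 2 : ℝ) : ℂ) * ((P (node N j))⁻¹ * P t).trace := by
      have h6 : ∀ t, ((‖dk N (node N j) t‖ ^ 2 : ℝ) : ℂ) * ((P (node N j))⁻¹ * P t).trace =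
          ∑ a, ∑ b, (P (node N j))⁻¹ a b * (((‖dk N (node N j) t‖ ^ 2 : ℝ) : ℂ) * P t b a) := by
        intro t
        simp only [trace, diag_apply, mul_apply, Finset.mul_sum]
        refine Finset.sum_congr rfl fun a _ => Finset.sum_congr rfl fun b _ => ?_
        ring
      simp_rw [h6]
      have hc : ∀ a b, Continuous fun t => (P (node N j))⁻¹ a b *
          (((‖dk N (node N j) t‖ ^ 2 : ℝ) : ℂ) * P t b a) := by
        intro a b
        have := hPc b a
        fun_prop
      rw [intervalIntegral.integral_finsetSum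
        (fun a _ => (continuous_finsetSum _ fun b _ => hc a b).intervalIntegrable _ _),
        Finset.mul_sum]
      refine Finset.sum_congr rfl fun a _ => ?_
      rw [intervalIntegral.integral_finsetSum (fun b _ => (hc a b).intervalIntegrable _ _),
        Finset.mul_sum]
      refine Finset.sum_congr rfl fun b _ => ?_
      rw [intervalIntegral.integral_const_mul]
      ring
    rw [h5]
    have htc : Continuous fun t => ((P (node N j))⁻¹ * P t).trace :=
      ((continuous_const.matrix_mul hP).matrix_trace)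
    have hc2 : Continuous fun t => ((‖dk N (node N j) t‖ ^ 2 : ℝ) : ℂ) *
        ((P (node N j))⁻¹ * P t).trace := by fun_prop
    have h7 : (((2 * π : ℝ) : ℂ)⁻¹ * ∫ t in (0 : ℝ)..2 * π,
          ((‖dk N (node N j) t‖ ^ 2 : ℝ) : ℂ) * ((P (node N j))⁻¹ * P t).trace).re =
        (2 * π)⁻¹ * ∫ t in (0 : ℝ)..2 * π,
          ‖dk N (node N j) t‖ ^ 2 * ((P (node N j))⁻¹ * P t).trace.re := by
      rw [← Complex.ofReal_inv, Complex.re_ofReal_mul]
      congr 1
      have h8 := (intervalIntegral.intervalIntegral_re (hc2.intervalIntegrable (μ := volume) 0 (2 * π)))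
      refine h8.symm.trans ?_
      congr 1
      funext t
      exact Complex.re_ofReal_mul _ _
    rw [h7]
    have h2pi : (0 : ℝ) ≤ 2 * π := by positivity
    have h9 : ∫ t in (0 : ℝ)..2 * π,
          ‖dk N (node N j) t‖ ^ 2 * ((P (node N j))⁻¹ * P t).trace.re ≤
        ∫ t in (0 : ℝ)..2 * π, ((Fintype.card m + ε) * ‖dk N (node N j) t‖ ^ 2 + C * (4 / N)) := by
      have hc3 : Continuous fun t => ‖dk N (node N j) t‖ ^ 2 * ((P (node N j))⁻¹ * P t).trace.re :=
        (hdk.norm.pow 2).mul (Complex.continuous_re.comp htc)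
      have hc4 : Continuous fun t => ((Fintype.card m + ε) * ‖dk N (node N j) t‖ ^ 2 + C * (4 / N)) := by
        fun_prop
      refine intervalIntegral.integral_mono_on h2pi (hc3.intervalIntegrable _ _)
        (hc4.intervalIntegrable _ _) fun t ht => ?_
      have h10 := hbd _ (hnode j) t ht
      have h11 := dk_bound hN (node N j) t
      have h12 : 0 ≤ ‖dk N (node N j) t‖ ^ 2 := by positivity
      calc ‖dk N (node N j) t‖ ^ 2 * ((P (node N j))⁻¹ * P t).trace.re
          ≤ ‖dk N (node N j) t‖ ^ 2 * (Fintype.card m + ε + C * ‖ez t - ez (node N j)‖ ^ 2) :=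
            mul_le_mul_of_nonneg_left h10 h12
        _ = (Fintype.card m + ε) * ‖dk N (node N j) t‖ ^ 2 +
            C * (‖dk N (node N j) t‖ ^ 2 * ‖ez t - ez (node N j)‖ ^ 2) := by ring
        _ ≤ (Fintype.card m + ε) * ‖dk N (node N j) t‖ ^ 2 + C * (4 / N) := by
            have := mul_le_mul_of_nonneg_left h11 hC
            linarith
    have h13 := dk_mass hN (node N j)
    have h14 : ∫ t in (0 : ℝ)..2 * π, ((Fintype.card m + ε) * ‖dk N (node N j) t‖ ^ 2 + C * (4 / N)) =
        (Fintype.card m + ε) * (∫ t in (0 : ℝ)..2 * π, ‖dk N (node N j) t‖ ^ 2) +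
          2 * π * (C * (4 / N)) := by
      rw [intervalIntegral.integral_add, intervalIntegral.integral_const_mul,
        intervalIntegral.integral_const]
      · simp
      · exact ((continuous_const.mul (hdk.norm.pow 2))).intervalIntegrable _ _
      · exact continuous_const.intervalIntegrable _ _
    rw [h14] at h9
    have hpi : (0 : ℝ) < 2 * π := by positivity
    have h15 := mul_le_mul_of_nonneg_left h9 (inv_nonneg.2 hpi.le)
    refine h15.trans (le_of_eq ?_)
    have h16 : (2 * π)⁻¹ * ((Fintype.card m + ε) * (∫ t in (0 : ℝ)..2 * π, ‖dk N (node N j) t‖ ^ 2) +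
          2 * π * (C * (4 / N))) = (Fintype.card m + ε) * ((2 * π)⁻¹ * ∫ t in (0 : ℝ)..2 * π,
          ‖dk N (node N j) t‖ ^ 2) + ((2 * π)⁻¹ * (2 * π)) * (C * (4 / N)) := by ring
    rw [h16, h13, inv_mul_cancel₀ hpi.ne']
    ring
  rw [Finset.sum_const, Finset.card_univ, Fintype.card_fin, nsmul_eq_mul] at h4
  rw [h2] at h1
  have h5 : (Fintype.card (m × Fin N) : ℝ) = N * Fintype.card m := by
    rw [Fintype.card_prod, Fintype.card_fin]
    push_cast
    ring
  rw [h5] at h1
  have hN' : (N : ℝ) ≠ 0 := by exact_mod_cast hN.ne'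
  have h6 : (N : ℝ) * (Fintype.card m + ε + C * (4 / N)) = N * Fintype.card m + N * ε + 4 * C := by
    field_simp
  rw [h6] at h4
  linarith

/-- Riemann sums of a continuous function, one-sided estimate. -/
lemma riemann_sum {g : ℝ → ℝ} (hg : Continuous g) {ε : ℝ} (hε : 0 < ε) :
    ∃ N₀ : ℕ, ∀ N : ℕ, N₀ ≤ N → 0 < N →
      ∑ j : Fin N, g (node N j) ≤ N * ((2 * π)⁻¹ * ∫ t in (0 : ℝ)..2 * π, g t) + N * ε := by
  have huc : UniformContinuousOn g (Set.Icc (0 : ℝ) (2 * π)) :=
    isCompact_Icc.uniformContinuousOn_of_continuous hg.continuousOn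
  rw [Metric.uniformContinuousOn_iff] at huc
  obtain ⟨δ, hδ, hd⟩ := huc ε hε
  obtain ⟨N₀, hN₀⟩ := exists_nat_gt (2 * π / δ)
  refine ⟨N₀, fun N hN hNpos => ?_⟩
  have hN' : (0 : ℝ) < N := by exact_mod_cast hNpos
  have hstep : 2 * π / N < δ := by
    rw [div_lt_iff₀ hN']
    rw [div_lt_iff₀ hδ] at hN₀
    have : (N₀ : ℝ) ≤ N := by exact_mod_cast hN
    nlinarith
  have hpi : (0 : ℝ) < 2 * π := by positivity
  have hsum : ∑ j ∈ Finset.range N, ∫ t in (node N j)..(node N (j + 1)), g t =
      ∫ t in (node N 0)..(node N N), g t :=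
    intervalIntegral.sum_integral_adjacent_intervals fun k _ => hg.intervalIntegrable _ _
  have hn0 : node N 0 = 0 := by simp [node]
  have hnN : node N N = 2 * π := by
    unfold node; field_simp
  rw [hn0, hnN] at hsum
  have hkey : ∀ j ∈ Finset.range N, (2 * π / N) * (g (node N j) - ε) ≤
      ∫ t in (node N j)..(node N (j + 1)), g t := by
    intro j hj
    have hjN : (j : ℝ) + 1 ≤ N := by exact_mod_cast Finset.mem_range.1 hj
    have hlen : node N (j + 1) - node N j = 2 * π / N := by
      unfold node; push_cast; ring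
    have hle : node N j ≤ node N (j + 1) := by
      have : 0 < 2 * π / N := by positivity
      linarith
    have h0 : 0 ≤ node N j := by unfold node; positivity
    have h1 : node N (j + 1) ≤ 2 * π := by
      unfold node
      rw [div_le_iff₀ hN']
      push_cast
      nlinarith
    have h2 : ∫ _t in (node N j)..(node N (j + 1)), (g (node N j) - ε) =
        (2 * π / N) * (g (node N j) - ε) := by
      rw [intervalIntegral.integral_const, hlen, smul_eq_mul]
    rw [← h2]
    refine intervalIntegral.integral_mono_on hle (continuous_const.intervalIntegrable _ _)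
      (hg.intervalIntegrable _ _) fun t ht => ?_
    have h3 : dist t (node N j) < δ := by
      rw [Real.dist_eq, abs_of_nonneg (by linarith [ht.1])]
      linarith [ht.2]
    have h4 := hd t ⟨h0.trans ht.1, ht.2.trans h1⟩ (node N j) ⟨h0, hle.trans h1⟩ h3
    rw [Real.dist_eq] at h4
    have h5 := (abs_lt.1 h4).1
    linarith
  have h6 := Finset.sum_le_sum hkey
  rw [hsum, ← Finset.mul_sum, Finset.sum_sub_distrib, Finset.sum_const, Finset.card_range,
    nsmul_eq_mul] at h6
  rw [Fin.sum_univ_eq_sum_range (fun j => g (node N j)) N]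
  have h7 : ∑ j ∈ Finset.range N, g (node N j) - N * ε ≤
      N * ((2 * π)⁻¹ * ∫ t in (0 : ℝ)..2 * π, g t) := by
    have h8 := mul_le_mul_of_nonneg_left h6 (by positivity : 0 ≤ N * (2 * π)⁻¹)
    have h9 : N * (2 * π)⁻¹ * (2 * π / N * (∑ j ∈ Finset.range N, g (node N j) - N * ε)) =
        ∑ j ∈ Finset.range N, g (node N j) - N * ε := by
      field_simp
    rw [h9] at h8
    linarith
  linarith

/-- **Matrix Szego theorem (the inequality used for extremal discs).**
If the continuous positive definite periodic weight `P` and the positive definite matrix `Q`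
satisfy `p(0)^* Q p(0) ≤ lam * avg p^* P p` for all vector polynomials `p`, then
`log det Q ≤ n log lam + avg log det P`. -/
theorem matrix_szego {P : ℝ → Matrix m m ℂ} (hP : Continuous P)
    (hper : Function.Periodic P (2 * π)) (hpd : ∀ t, (P t).PosDef)
    {Q : Matrix m m ℂ} (hQ : Q.PosDef) {lam : ℝ} (hlam : 0 < lam) (H : Extremal P Q lam) :
    Real.log Q.det.re ≤ Fintype.card m * Real.log lam +
      (2 * π)⁻¹ * ∫ t in (0 : ℝ)..2 * π, Real.log (P t).det.re := by
  apply le_of_forall_pos_le_add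
  intro ε hε
  have hε3 : 0 < ε / 3 := by positivity
  obtain ⟨C, hC, hbd⟩ := trace_bound hP hpd hper hε3
  have hg : Continuous fun t => Real.log (P t).det.re :=
    (Complex.continuous_re.comp hP.matrix_det).log fun t => (det_re_pos (hpd t)).ne'
  obtain ⟨N₀, hN₀⟩ := riemann_sum hg hε3
  obtain ⟨N₁, hN₁⟩ := exists_nat_gt (4 * C / (ε / 3))
  set N := N₀ + N₁ + 1 with hN
  have hNpos : 0 < N := by omega
  have hN' : (0 : ℝ) < N := by exact_mod_cast hNpos
  obtain ⟨hT, hlow⟩ := toep_lower hP (fun t => (hpd t).1) hQ hlam H N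
  have hup := toep_upper hP hpd hC hbd hNpos hT
  have hr := hN₀ N (by omega) hNpos
  have h1 : 4 * C ≤ N * (ε / 3) := by
    rw [div_lt_iff₀ hε3] at hN₁
    have : (N₁ : ℝ) ≤ N := by
      rw [hN]; push_cast
      have : (0 : ℝ) ≤ N₀ := by positivity
      linarith
    nlinarith
  have h2 : N * (Real.log Q.det.re - Fintype.card m * Real.log lam) ≤
      N * ((2 * π)⁻¹ * (∫ t in (0 : ℝ)..2 * π, Real.log (P t).det.re) + ε) := by
    linarith
  have h3 := le_of_mul_le_mul_left h2 hN'
  linarith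

end Vale.P272.H696
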