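import Vale.Agent.P272.H696.Szego

open Matrix Complex MeasureTheory Metric
open scoped ComplexOrder Real MatrixOrder

namespace Vale.P272.H696

variable {m : Type*} [Fintype m] [DecidableEq m]

/-- matrix Szego inequality, circle average form -/
theorem matrix_szego_circle {P : ℂ → Matrix m m ℂ} (hP : ContinuousOn P (sphere (0 : ℂ) 1))
    (hpd : ∀ z ∈ sphere (0 : ℂ) 1, (P z).PosDef)
    {Q : Matrix m m ℂ} (hQ : Q.PosDef) {lam : ℝ} (hlam : 0 < lam)
    (H : ∀ p : m → Polynomial ℂ,
      (star (fun i => (p i).eval 0) ⬝ᵥ Q *ᵥ (fun i => (p i).eval 0)).re ≤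
        lam * Real.circleAverage (fun z => (star (fun i => (p i).eval z) ⬝ᵥ
          P z *ᵥ (fun i => (p i).eval z)).re) 0 1) :
    Real.log Q.det.re ≤ Fintype.card m * Real.log lam +
      Real.circleAverage (fun z => Real.log (P z).det.re) 0 1 := by
  have hcm : ∀ t : ℝ, circleMap 0 1 t = ez t := by
    intro t
    simp [circleMap, ez]
  have hmem : ∀ t : ℝ, ez t ∈ sphere (0 : ℂ) 1 := by
    intro t
    simp [norm_ez]
  have hc : Continuous fun t : ℝ => P (ez t) :=
    hP.comp_continuous continuous_ez hmem
  have hper : Function.Periodic (fun t : ℝ => P (ez t)) (2 * π) := by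
    intro t
    have : ez (t + 2 * π) = ez t := by
      unfold ez
      have h := Complex.exp_periodic (t * I)
      rw [← h]
      congr 1
      push_cast
      ring
    simp only [this]
  have h := matrix_szego hc hper (fun t => hpd _ (hmem t)) hQ hlam (by
    intro p
    refine (H p).trans (le_of_eq ?_)
    rw [Real.circleAverage]
    simp only [hcm, smul_eq_mul])
  refine h.trans (le_of_eq ?_)
  rw [Real.circleAverage]
  simp only [hcm, smul_eq_mul]

end Vale.P272.H696
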