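import Vale.Agent.P272.H696.LogDet

open Matrix Complex MeasureTheory
open scoped ComplexOrder Real MatrixOrder

namespace Vale.P272.H696

variable {m : Type*} [Fintype m] [DecidableEq m]

/-- `z = e^{it}` -/
noncomputable def ez (t : ℝ) : ℂ := Complex.exp (t * I)

lemma continuous_ez : Continuous ez := by
  unfold ez; fun_prop

lemma star_ez_mul (t : ℝ) : star (ez t) * ez t = 1 := by
  have h : ‖ez t‖ = 1 := by unfold ez; exact Complex.norm_exp_ofReal_mul_I t
  have h2 : star (ez t) * ez t = ((‖ez t‖ ^ 2 : ℝ) : ℂ) := by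
    rw [mul_comm]
    have := Complex.mul_conj (ez t)
    rw [Complex.normSq_eq_norm_sq] at this
    exact this
  rw [h2, h]; simp

/-- block Toeplitz matrix of the weight `P` -/
noncomputable def toep (P : ℝ → Matrix m m ℂ) (N : ℕ) : Matrix (m × Fin N) (m × Fin N) ℂ :=
  fun x y => ((2 * π : ℝ) : ℂ)⁻¹ *
    ∫ t in (0 : ℝ)..2 * π, star (ez t ^ (x.2 : ℕ)) * ez t ^ (y.2 : ℕ) * P t x.1 y.1

/-- the vector valued trigonometric polynomial with coefficients `x` -/
noncomputable def tvec {N : ℕ} (x : m × Fin N → ℂ) (t : ℝ) : m → ℂ :=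
  fun a => ∑ k : Fin N, ez t ^ (k : ℕ) * x (a, k)

omit [DecidableEq m] in
lemma form_expand {N : ℕ} (A : Matrix m m ℂ) (x y : m × Fin N → ℂ) (t : ℝ) :
    star (tvec x t) ⬝ᵥ A *ᵥ tvec y t =
      ∑ p : m × Fin N, ∑ q : m × Fin N,
        star (x p) * (star (ez t ^ (p.2 : ℕ)) * ez t ^ (q.2 : ℕ) * A p.1 q.1) * y q := by
  simp only [dotProduct, mulVec, tvec, Pi.star_apply, Fintype.sum_prod_type, star_sum]
  refine Finset.sum_congr rfl fun a _ => ?_
  rw [Finset.sum_mul]
  refine Finset.sum_congr rfl fun k _ => ?_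
  rw [Finset.mul_sum]
  refine Finset.sum_congr rfl fun b _ => ?_
  rw [Finset.mul_sum, Finset.mul_sum]
  refine Finset.sum_congr rfl fun l _ => ?_
  simp only [star_mul']
  ring

omit [Fintype m] [DecidableEq m] in
lemma continuous_entry {P : ℝ → Matrix m m ℂ} (hP : Continuous P) (a b : m) :
    Continuous fun t => P t a b := by
  exact (continuous_apply b).comp ((continuous_apply a).comp hP)

omit [DecidableEq m] in
lemma toep_form {P : ℝ → Matrix m m ℂ} (hP : Continuous P) {N : ℕ} (x y : m × Fin N → ℂ) :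
    star x ⬝ᵥ toep P N *ᵥ y =
      ((2 * π : ℝ) : ℂ)⁻¹ * ∫ t in (0 : ℝ)..2 * π, star (tvec x t) ⬝ᵥ P t *ᵥ tvec y t := by
  have hc : ∀ p q : m × Fin N, Continuous fun t =>
      star (x p) * (star (ez t ^ (p.2 : ℕ)) * ez t ^ (q.2 : ℕ) * P t p.1 q.1) * y q := by
    intro p q
    have h1 := continuous_entry hP p.1 q.1
    have h2 := continuous_ez
    fun_prop
  simp_rw [form_expand]
  rw [intervalIntegral.integral_finsetSum
    (fun p _ => (continuous_finsetSum _ fun q _ => hc p q).intervalIntegrable _ _)]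
  rw [Finset.mul_sum]
  simp only [dotProduct, mulVec, Pi.star_apply]
  refine Finset.sum_congr rfl fun p _ => ?_
  rw [intervalIntegral.integral_finsetSum (fun q _ => (hc p q).intervalIntegrable _ _),
    Finset.mul_sum, Finset.mul_sum]
  refine Finset.sum_congr rfl fun q _ => ?_
  rw [intervalIntegral.integral_mul_const, intervalIntegral.integral_const_mul]
  unfold toep
  ring

omit [Fintype m] [DecidableEq m] in
lemma toep_apply (P : ℝ → Matrix m m ℂ) (N : ℕ) (x y : m × Fin N) :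
    toep P N x y = ((2 * π : ℝ) : ℂ)⁻¹ *
      ∫ t in (0 : ℝ)..2 * π, star (ez t ^ (x.2 : ℕ)) * ez t ^ (y.2 : ℕ) * P t x.1 y.1 := rfl

omit [Fintype m] [DecidableEq m] in
lemma toep_isHermitian {P : ℝ → Matrix m m ℂ} (hP : ∀ t, (P t).IsHermitian) (N : ℕ) :
    (toep P N).IsHermitian := by
  ext x y
  rw [conjTranspose_apply, toep_apply, toep_apply, star_mul']
  have h2 : (0 : ℝ) ≤ 2 * π := by positivity
  rw [intervalIntegral.integral_of_le h2, intervalIntegral.integral_of_le h2]
  have h3 : ∀ z : ℂ, star z = (starRingEnd ℂ) z := fun z => rfl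
  rw [h3 (∫ t in Set.Ioc 0 (2 * π), _), ← integral_conj]
  congr 1
  · simp [← Complex.ofReal_inv]
  · refine integral_congr_ae (Filter.Eventually.of_forall fun t => ?_)
    have h4 := (hP t).apply x.1 y.1
    simp only
    rw [← h3, star_mul', star_mul', star_star, h4]
    ring

/-- the index equivalence splitting off the zeroth block -/
def splitEquiv (m : Type*) (N : ℕ) : m ⊕ (m × Fin N) ≃ m × Fin (N + 1) where
  toFun := Sum.elim (fun a => (a, 0)) (fun p => (p.1, p.2.succ))
  invFun := fun p => Fin.cases (Sum.inl p.1) (fun k => Sum.inr (p.1, k)) p.2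
  left_inv := by
    rintro (a | ⟨a, k⟩) <;> simp
  right_inv := by
    rintro ⟨a, k⟩
    refine Fin.cases ?_ (fun k => ?_) k <;> simp

/-- hypothesis of the theorem: extremality of the constant term -/
def Extremal (P : ℝ → Matrix m m ℂ) (Q : Matrix m m ℂ) (lam : ℝ) : Prop :=
  ∀ p : m → Polynomial ℂ,
    (star (fun i => (p i).eval 0) ⬝ᵥ Q *ᵥ (fun i => (p i).eval 0)).re ≤
      lam * ((2 * π)⁻¹ * ∫ t in (0 : ℝ)..2 * π,
        (star (fun i => (p i).eval (ez t)) ⬝ᵥ P t *ᵥ (fun i => (p i).eval (ez t))).re)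

omit [DecidableEq m] in
lemma extremal_toep {P : ℝ → Matrix m m ℂ} (hP : Continuous P) {Q : Matrix m m ℂ} {lam : ℝ}
    (H : Extremal P Q lam) (N : ℕ) (x : m × Fin (N + 1) → ℂ) :
    (star (fun a => x (a, 0)) ⬝ᵥ Q *ᵥ (fun a => x (a, 0))).re ≤
      lam * (star x ⬝ᵥ toep P (N + 1) *ᵥ x).re := by
  have h := H (fun a => ∑ k : Fin (N + 1), Polynomial.C (x (a, k)) * Polynomial.X ^ (k : ℕ))
  have h0 : (fun a => Polynomial.eval 0
      (∑ k : Fin (N + 1), Polynomial.C (x (a, k)) * Polynomial.X ^ (k : ℕ))) =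
      fun a => x (a, 0) := by
    funext a
    simp [Polynomial.eval_finsetSum, Fin.sum_univ_succ]
  have h1 : ∀ t, (fun a => Polynomial.eval (ez t)
      (∑ k : Fin (N + 1), Polynomial.C (x (a, k)) * Polynomial.X ^ (k : ℕ))) =
      tvec x t := by
    intro t
    funext a
    simp only [Polynomial.eval_finsetSum, Polynomial.eval_mul, Polynomial.eval_C,
      Polynomial.eval_pow, Polynomial.eval_X, tvec]
    exact Finset.sum_congr rfl fun k _ => mul_comm _ _
  rw [h0] at h
  simp only [h1] at h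
  refine h.trans (le_of_eq ?_)
  rw [toep_form hP]
  congr 1
  have hc : Continuous fun t => star (tvec x t) ⬝ᵥ P t *ᵥ tvec x t := by
    have h2 := continuous_ez
    have h3 : Continuous (tvec x) := by
      unfold tvec; fun_prop
    exact (h3.star).dotProduct (hP.matrix_mulVec h3)
  rw [← Complex.ofReal_inv, Complex.re_ofReal_mul]
  congr 1
  exact (intervalIntegral.intervalIntegral_re (hc.intervalIntegrable _ _))

/-- Schur complement step -/
lemma schur_step {n : Type*} [Fintype n] [DecidableEq n] {A : Matrix m m ℂ} {B : Matrix m n ℂ}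
    {D : Matrix n n ℂ} (hA : (fromBlocks A B Bᴴ D).IsHermitian) (hD : D.PosDef)
    {R : Matrix m m ℂ} (hR : R.PosDef)
    (h : ∀ x : m ⊕ n → ℂ, (star (x ∘ Sum.inl) ⬝ᵥ R *ᵥ (x ∘ Sum.inl)).re ≤
      (star x ⬝ᵥ (fromBlocks A B Bᴴ D) *ᵥ x).re) :
    (fromBlocks A B Bᴴ D).PosDef ∧
      Real.log R.det.re + Real.log D.det.re ≤ Real.log (fromBlocks A B Bᴴ D).det.re := by
  have hDu : IsUnit D := hD.isUnit
  have : Invertible D := hDu.invertible
  have hAherm : A.IsHermitian := by
    have := hA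
    rw [isHermitian_fromBlocks_iff] at this
    exact this.1
  -- the shifted block matrix
  have hsub : fromBlocks (A - R) B Bᴴ D = fromBlocks A B Bᴴ D - fromBlocks R 0 0 0 := by
    ext i j
    cases i <;> cases j <;> simp
  have hform : ∀ x : m ⊕ n → ℂ, star x ⬝ᵥ (fromBlocks R 0 0 (0 : Matrix n n ℂ)) *ᵥ x =
      star (x ∘ Sum.inl) ⬝ᵥ R *ᵥ (x ∘ Sum.inl) := by
    intro x
    have hx : star x = Sum.elim (star (x ∘ Sum.inl)) (star (x ∘ Sum.inr)) := by
      ext i; cases i <;> simp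
    rw [fromBlocks_mulVec, hx, sumElim_dotProduct_sumElim]
    simp
  have hherm2 : (fromBlocks (A - R) B Bᴴ D).IsHermitian := by
    rw [isHermitian_fromBlocks_iff]
    exact ⟨hAherm.sub hR.1, rfl, by simp, hD.1⟩
  have hpsd : (fromBlocks (A - R) B Bᴴ D).PosSemidef := by
    apply PosSemidef.of_dotProduct_mulVec_nonneg hherm2
    intro x
    rw [Complex.le_def]
    constructor
    · rw [hsub, sub_mulVec, dotProduct_sub, hform, Complex.sub_re]
      have := h x
      simp only [Complex.zero_re]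
      linarith
    · have := hherm2.im_star_dotProduct_mulVec_self x
      simpa using this.symm
  have hS : ((A - B * D⁻¹ * Bᴴ) - R).PosSemidef := by
    have h1 := (Matrix.PosDef.fromBlocks₂₂ (A - R) B hD).1 hpsd
    have h2 : A - R - B * D⁻¹ * Bᴴ = (A - B * D⁻¹ * Bᴴ) - R := by abel
    rwa [h2] at h1
  have hSpd : (A - B * D⁻¹ * Bᴴ).PosDef := by
    have h1 := hR.add_posSemidef hS
    have h2 : R + ((A - B * D⁻¹ * Bᴴ) - R) = A - B * D⁻¹ * Bᴴ := by abel
    rwa [h2] at h1
  have hdet : (fromBlocks A B Bᴴ D).det = D.det * (A - B * D⁻¹ * Bᴴ).det := by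
    rw [det_fromBlocks₂₂, invOf_eq_nonsing_inv]
  have hdetre : (fromBlocks A B Bᴴ D).det.re = D.det.re * (A - B * D⁻¹ * Bᴴ).det.re := by
    rw [hdet, det_eq_re hD, det_eq_re hSpd, ← Complex.ofReal_mul]
    simp
  refine ⟨?_, ?_⟩
  · have h1 : (fromBlocks A B Bᴴ D).PosSemidef :=
      (Matrix.PosDef.fromBlocks₂₂ A B hD).2 hSpd.posSemidef
    rw [h1.posDef_iff_det_ne_zero, hdet]
    exact mul_ne_zero hD.det_pos.ne' hSpd.det_pos.ne'
  · rw [hdetre, Real.log_mul (det_re_pos hD).ne' (det_re_pos hSpd).ne']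
    have := log_det_mono hR hSpd hS
    linarith

omit [Fintype m] [DecidableEq m] in
lemma toep_split {P : ℝ → Matrix m m ℂ} (hP : ∀ t, (P t).IsHermitian) (N : ℕ) :
    ∃ (A : Matrix m m ℂ) (B : Matrix m (m × Fin N) ℂ),
      (toep P (N + 1)).submatrix (splitEquiv m N) (splitEquiv m N) =
        fromBlocks A B Bᴴ (toep P N) := by
  set M := (toep P (N + 1)).submatrix (splitEquiv m N) (splitEquiv m N) with hM
  have hMh : M.IsHermitian := (toep_isHermitian hP (N + 1)).submatrix _
  refine ⟨M.toBlocks₁₁, M.toBlocks₁₂, ?_⟩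
  have h21 : M.toBlocks₂₁ = (M.toBlocks₁₂)ᴴ := by
    ext i j
    simp only [toBlocks₂₁, toBlocks₁₂, conjTranspose_apply, of_apply]
    exact (hMh.apply _ _).symm
  have h22 : M.toBlocks₂₂ = toep P N := by
    ext i j
    simp only [toBlocks₂₂, of_apply, hM, submatrix_apply, splitEquiv, Equiv.coe_fn_mk,
      Sum.elim_inr, toep_apply]
    congr 1
    congr 1
    funext t
    have h := star_ez_mul t
    simp only [Fin.val_succ, pow_succ, star_mul']
    linear_combination (star (ez t ^ (i.2 : ℕ)) * ez t ^ (j.2 : ℕ) * P t i.1 j.1) * h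
  conv_lhs => rw [← fromBlocks_toBlocks M]
  rw [h21, h22]

/-- **Lower bound for the block Toeplitz determinants.** -/
theorem toep_lower {P : ℝ → Matrix m m ℂ} (hPc : Continuous P) (hP : ∀ t, (P t).IsHermitian)
    {Q : Matrix m m ℂ} (hQ : Q.PosDef) {lam : ℝ} (hlam : 0 < lam) (H : Extremal P Q lam) (N : ℕ) :
    (toep P N).PosDef ∧
      N * (Real.log Q.det.re - Fintype.card m * Real.log lam) ≤ Real.log (toep P N).det.re := by
  induction N with
  | zero =>
    refine ⟨PosDef.of_dotProduct_mulVec_pos (toep_isHermitian hP 0)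
      (fun {x} hx => absurd (Subsingleton.elim x 0) hx), ?_⟩
    have : IsEmpty (m × Fin 0) := ⟨fun x => x.2.elim0⟩
    have h0 : (toep P 0).det = 1 := det_isEmpty
    rw [h0]
    simp
  | succ N ih =>
    obtain ⟨ih1, ih2⟩ := ih
    obtain ⟨A, B, hAB⟩ := toep_split hP N
    set R : Matrix m m ℂ := ((lam⁻¹ : ℝ) : ℂ) • Q with hR
    have hRpd : R.PosDef := by
      refine hQ.smul ?_
      rw [Complex.lt_def]
      simp [hlam]
    have hRdet : Real.log R.det.re = Real.log Q.det.re - Fintype.card m * Real.log lam := by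
      rw [hR, det_smul, det_eq_re hQ, ← Complex.ofReal_pow, ← Complex.ofReal_mul,
        Complex.ofReal_re, Complex.ofReal_re,
        Real.log_mul (pow_ne_zero _ (inv_ne_zero hlam.ne')) (det_re_pos hQ).ne', Real.log_pow,
        Real.log_inv]
      ring
    have hherm : (fromBlocks A B Bᴴ (toep P N)).IsHermitian := by
      rw [← hAB]; exact (toep_isHermitian hP (N + 1)).submatrix _
    have hkey : ∀ x : m ⊕ (m × Fin N) → ℂ, (star (x ∘ Sum.inl) ⬝ᵥ R *ᵥ (x ∘ Sum.inl)).re ≤
        (star x ⬝ᵥ (fromBlocks A B Bᴴ (toep P N)) *ᵥ x).re := by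
      intro x
      have h1 := extremal_toep hPc H N (x ∘ (splitEquiv m N).symm)
      have h2 : (fun a => (x ∘ (splitEquiv m N).symm) (a, 0)) = x ∘ Sum.inl := by
        funext a
        rfl
      have h3 : star (x ∘ (splitEquiv m N).symm) ⬝ᵥ toep P (N + 1) *ᵥ (x ∘ (splitEquiv m N).symm)
          = star x ⬝ᵥ (fromBlocks A B Bᴴ (toep P N)) *ᵥ x := by
        rw [← hAB, submatrix_mulVec_equiv, ← comp_equiv_symm_dotProduct]
        rfl
      rw [h2, h3] at h1
      have h4 : (star (x ∘ Sum.inl) ⬝ᵥ R *ᵥ (x ∘ Sum.inl)).re =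
          lam⁻¹ * (star (x ∘ Sum.inl) ⬝ᵥ Q *ᵥ (x ∘ Sum.inl)).re := by
        rw [hR, smul_mulVec, dotProduct_smul, smul_eq_mul, Complex.re_ofReal_mul]
      rw [h4, inv_mul_le_iff₀ hlam]
      exact h1
    obtain ⟨h1, h2⟩ := schur_step hherm ih1 hRpd hkey
    have hdet : (fromBlocks A B Bᴴ (toep P N)).det = (toep P (N + 1)).det := by
      rw [← hAB, det_submatrix_equiv_self]
    refine ⟨?_, ?_⟩
    · have h3 := h1.submatrix (e := (splitEquiv m N).symm) (splitEquiv m N).symm.injective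
      rw [← hAB] at h3
      simpa using h3
    · rw [hdet] at h2
      push_cast
      linarith

end Vale.P272.H696
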