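import Vale.Agent.P272.H696.Toeplitz

open Matrix Complex MeasureTheory
open scoped ComplexOrder Real MatrixOrder

namespace Vale.P272.H696

variable {m : Type*} [Fintype m] [DecidableEq m]

/-- nodes of the discrete Fourier transform -/
noncomputable def node (N : ℕ) (j : ℕ) : ℝ := 2 * π * j / N

lemma norm_ez (t : ℝ) : ‖ez t‖ = 1 := Complex.norm_exp_ofReal_mul_I t

lemma ez_mul_star_ez (s t : ℝ) : ez s * star (ez t) = ez (s - t) := by
  have h : star (ez t) = ez (-t) := by
    have h1 : star (ez t) = (starRingEnd ℂ) (ez t) := rfl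
    rw [h1]
    unfold ez
    rw [← Complex.exp_conj]
    congr 1
    simp
  rw [h]
  unfold ez
  rw [← Complex.exp_add]
  congr 1
  push_cast
  ring

/-- the kernel: square root of the Fejer kernel -/
noncomputable def dk (N : ℕ) (θ t : ℝ) : ℂ :=
  ((Real.sqrt N)⁻¹ : ℝ) * ∑ k : Fin N, (ez t * star (ez θ)) ^ (k : ℕ)

lemma dk_mul (N : ℕ) (θ t : ℝ) :
    dk N θ t * (ez t * star (ez θ) - 1) =
      ((Real.sqrt N)⁻¹ : ℝ) * ((ez t * star (ez θ)) ^ N - 1) := by
  unfold dk
  rw [mul_assoc, Fin.sum_univ_eq_sum_range (fun k => (ez t * star (ez θ)) ^ k) N,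
    geom_sum_mul]

lemma norm_sub_ez (θ t : ℝ) : ‖ez t * star (ez θ) - 1‖ = ‖ez t - ez θ‖ := by
  have h1 : ez t - ez θ = (ez t * star (ez θ) - 1) * ez θ := by
    linear_combination (-ez t) * star_ez_mul θ
  rw [h1, norm_mul, norm_ez, mul_one]

lemma dk_bound {N : ℕ} (hN : 0 < N) (θ t : ℝ) :
    ‖dk N θ t‖ ^ 2 * ‖ez t - ez θ‖ ^ 2 ≤ 4 / N := by
  have h := congrArg norm (dk_mul N θ t)
  rw [norm_mul, norm_mul, norm_sub_ez] at h
  have h1 : ‖(((Real.sqrt N)⁻¹ : ℝ) : ℂ)‖ = (Real.sqrt N)⁻¹ := by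
    rw [Complex.norm_real, Real.norm_eq_abs, abs_of_nonneg (by positivity)]
  have h2 : ‖(ez t * star (ez θ)) ^ N - 1‖ ≤ 2 := by
    calc ‖(ez t * star (ez θ)) ^ N - 1‖ ≤ ‖(ez t * star (ez θ)) ^ N‖ + ‖(1 : ℂ)‖ := norm_sub_le _ _
      _ = 2 := by
        rw [norm_pow, norm_mul, norm_star, norm_ez, norm_ez]; norm_num
  rw [← mul_pow, h, h1, mul_pow, inv_pow, Real.sq_sqrt (Nat.cast_nonneg N)]
  have h3 : ‖(ez t * star (ez θ)) ^ N - 1‖ ^ 2 ≤ 4 := by
    have := pow_le_pow_left₀ (norm_nonneg _) h2 2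
    linarith
  rw [div_eq_inv_mul]
  exact mul_le_mul_of_nonneg_left h3 (by positivity)

lemma avg_ez (k l : ℕ) :
    ((2 * π : ℝ) : ℂ)⁻¹ * ∫ t in (0 : ℝ)..2 * π, star (ez t ^ k) * ez t ^ l =
      if k = l then 1 else 0 := by
  have h0 : ((2 * π : ℝ) : ℂ) ≠ 0 := by
    have : (2 * π : ℝ) ≠ 0 := by positivity
    exact_mod_cast this
  have h : ∀ t, star (ez t ^ k) * ez t ^ l = Complex.exp ((((l : ℂ) - k) * I) * t) := by
    intro t
    have h1 : star (ez t) = ez (-t) := by
      have := ez_mul_star_ez 0 t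
      simpa [ez] using this
    rw [star_pow, h1]
    unfold ez
    rw [← Complex.exp_nat_mul, ← Complex.exp_nat_mul, ← Complex.exp_add]
    congr 1
    push_cast
    ring
  simp_rw [h]
  split_ifs with hkl
  · subst hkl
    simp only [sub_self, zero_mul, Complex.exp_zero, intervalIntegral.integral_const, sub_zero]
    rw [Complex.real_smul, mul_one]
    exact inv_mul_cancel₀ h0
  · have hne : (((l : ℂ) - k) * I) ≠ 0 := by
      apply mul_ne_zero _ I_ne_zero
      rw [sub_ne_zero]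
      exact fun h => hkl (by exact_mod_cast h.symm)
    rw [integral_exp_mul_complex hne]
    have h2 : Complex.exp ((((l : ℂ) - k) * I) * ((2 * π : ℝ) : ℂ)) = 1 := by
      have : (((l : ℂ) - k) * I) * ((2 * π : ℝ) : ℂ) = (((l : ℤ) - (k : ℤ) : ℤ) : ℂ) * (2 * π * I) := by
        push_cast; ring
      rw [this, Complex.exp_int_mul_two_pi_mul_I]
    rw [h2]
    simp

lemma continuous_dk (N : ℕ) (θ : ℝ) : Continuous (dk N θ) := by
  have := continuous_ez
  unfold dk; fun_prop

lemma dk_mass {N : ℕ} (hN : 0 < N) (θ : ℝ) :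
    (2 * π)⁻¹ * ∫ t in (0 : ℝ)..2 * π, ‖dk N θ t‖ ^ 2 = 1 := by
  have h1 : ∀ t, ((‖dk N θ t‖ ^ 2 : ℝ) : ℂ) =
      ∑ k : Fin N, ∑ l : Fin N, (N : ℂ)⁻¹ * (ez θ ^ (k : ℕ) * star (ez θ ^ (l : ℕ))) *
        (star (ez t ^ (k : ℕ)) * ez t ^ (l : ℕ)) := by
    intro t
    have h2 : ((‖dk N θ t‖ ^ 2 : ℝ) : ℂ) = star (dk N θ t) * dk N θ t := by
      have := Complex.mul_conj (dk N θ t)
      rw [Complex.normSq_eq_norm_sq] at this
      rw [← this, mul_comm]
      rfl
    rw [h2]
    unfold dk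
    rw [star_mul', star_sum, mul_mul_mul_comm, Finset.sum_mul, Finset.mul_sum]
    have h3 : star (((Real.sqrt N)⁻¹ : ℝ) : ℂ) * (((Real.sqrt N)⁻¹ : ℝ) : ℂ) = (N : ℂ)⁻¹ := by
      have h4 : star (((Real.sqrt N)⁻¹ : ℝ) : ℂ) = (((Real.sqrt N)⁻¹ : ℝ) : ℂ) :=
        Complex.conj_ofReal _
      rw [h4, ← Complex.ofReal_mul, ← mul_inv, Real.mul_self_sqrt (Nat.cast_nonneg N)]
      push_cast
      rfl
    refine Finset.sum_congr rfl fun k _ => ?_
    rw [h3, Finset.mul_sum, Finset.mul_sum]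
    refine Finset.sum_congr rfl fun l _ => ?_
    simp only [mul_pow, star_mul', star_pow, star_star]
    ring
  have h5 : (((2 * π)⁻¹ * ∫ t in (0 : ℝ)..2 * π, ‖dk N θ t‖ ^ 2 : ℝ) : ℂ) = 1 := by
    push_cast
    rw [← intervalIntegral.integral_ofReal]
    simp_rw [h1]
    have hc : ∀ k l : Fin N, Continuous fun t => (N : ℂ)⁻¹ * (ez θ ^ (k : ℕ) * star (ez θ ^ (l : ℕ))) *
        (star (ez t ^ (k : ℕ)) * ez t ^ (l : ℕ)) := by
      intro k l
      have := continuous_ez
      fun_prop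
    rw [intervalIntegral.integral_finsetSum
      (fun k _ => (continuous_finsetSum _ fun l _ => hc k l).intervalIntegrable _ _),
      Finset.mul_sum]
    have h6 : ∀ k : Fin N, (2 * (π : ℂ))⁻¹ * ∫ t in (0 : ℝ)..2 * π, ∑ l : Fin N,
        (N : ℂ)⁻¹ * (ez θ ^ (k : ℕ) * star (ez θ ^ (l : ℕ))) *
        (star (ez t ^ (k : ℕ)) * ez t ^ (l : ℕ)) = (N : ℂ)⁻¹ := by
      intro k
      rw [intervalIntegral.integral_finsetSum (fun l _ => (hc k l).intervalIntegrable _ _),
        Finset.mul_sum]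
      rw [Finset.sum_eq_single k]
      · rw [intervalIntegral.integral_const_mul]
        have h7 := avg_ez (k : ℕ) (k : ℕ)
        rw [if_pos rfl] at h7
        have h8 : ez θ ^ (k : ℕ) * star (ez θ ^ (k : ℕ)) = 1 := by
          rw [star_pow, ← mul_pow, mul_comm, star_ez_mul, one_pow]
        rw [h8]
        push_cast at h7
        linear_combination (N : ℂ)⁻¹ * h7
      · intro l _ hl
        rw [intervalIntegral.integral_const_mul]
        have h7 := avg_ez (k : ℕ) (l : ℕ)
        rw [if_neg (fun h => hl (Fin.ext h.symm))] at h7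
        push_cast at h7
        linear_combination ((N : ℂ)⁻¹ * (ez θ ^ (k : ℕ) * star (ez θ ^ (l : ℕ)))) * h7
      · simp
    rw [Finset.sum_congr rfl fun k _ => h6 k, Finset.sum_const, Finset.card_univ, Fintype.card_fin,
      nsmul_eq_mul]
    exact mul_inv_cancel₀ (by exact_mod_cast hN.ne')
  exact_mod_cast h5

lemma ez_node {N : ℕ} (j : ℕ) : ez (node N j) = Complex.exp (2 * π * I / N) ^ j := by
  unfold ez node
  rw [← Complex.exp_nat_mul]
  congr 1
  push_cast
  ring

lemma node_geom {N : ℕ} (hN : 0 < N) (i j : Fin N) :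
    ∑ k : Fin N, (ez (node N i) * star (ez (node N j))) ^ (k : ℕ) = if i = j then (N : ℂ) else 0 := by
  split_ifs with hij
  · subst hij
    have h : ez (node N i) * star (ez (node N i)) = 1 := by rw [mul_comm, star_ez_mul]
    rw [h]; simp
  · have hprim := Complex.isPrimitiveRoot_exp N hN.ne'
    have hne : ez (node N i) * star (ez (node N j)) ≠ 1 := by
      intro h
      have h1 : ez (node N i) = ez (node N j) := by
        linear_combination (ez (node N j)) * h - (ez (node N i)) * star_ez_mul (node N j)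
      rw [ez_node, ez_node] at h1
      exact hij (Fin.ext (hprim.pow_inj i.2 j.2 h1))
    have hpow : (ez (node N i) * star (ez (node N j))) ^ N = 1 := by
      rw [mul_pow, ← star_pow, ez_node, ez_node, ← pow_mul, ← pow_mul, mul_comm (i : ℕ) N,
        mul_comm (j : ℕ) N, pow_mul, pow_mul, hprim.pow_eq_one]
      simp
    rw [Fin.sum_univ_eq_sum_range (fun k => (ez (node N i) * star (ez (node N j))) ^ k) N]
    have h := geom_sum_mul (ez (node N i) * star (ez (node N j))) N
    rw [hpow, sub_self] at h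
    exact (mul_eq_zero.1 h).resolve_right (sub_ne_zero.2 hne)

/-- the unitary block discrete Fourier matrix -/
noncomputable def dft (m : Type*) [DecidableEq m] (N : ℕ) : Matrix (m × Fin N) (m × Fin N) ℂ :=
  Matrix.of fun x y => if x.1 = y.1 then
    (((Real.sqrt N)⁻¹ : ℝ) : ℂ) * star (ez (node N y.2)) ^ (x.2 : ℕ) else 0

lemma dft_unitary {N : ℕ} (hN : 0 < N) : (dft m N)ᴴ * dft m N = 1 := by
  ext ⟨a, i⟩ ⟨b, j⟩
  rw [mul_apply, Fintype.sum_prod_type]
  simp only [conjTranspose_apply, dft, of_apply]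
  rw [Finset.sum_eq_single a]
  · simp only [if_true]
    by_cases hab : a = b
    · subst hab
      simp only [if_true]
      have h3 : star (((Real.sqrt N)⁻¹ : ℝ) : ℂ) * (((Real.sqrt N)⁻¹ : ℝ) : ℂ) = (N : ℂ)⁻¹ := by
        have h4 : star (((Real.sqrt N)⁻¹ : ℝ) : ℂ) = (((Real.sqrt N)⁻¹ : ℝ) : ℂ) :=
          Complex.conj_ofReal _
        rw [h4, ← Complex.ofReal_mul, ← mul_inv, Real.mul_self_sqrt (Nat.cast_nonneg N)]
        push_cast
        rfl
      have h5 : ∀ k : Fin N, star ((((Real.sqrt N)⁻¹ : ℝ) : ℂ) * star (ez (node N i)) ^ (k : ℕ)) *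
          ((((Real.sqrt N)⁻¹ : ℝ) : ℂ) * star (ez (node N j)) ^ (k : ℕ)) =
          (N : ℂ)⁻¹ * (ez (node N i) * star (ez (node N j))) ^ (k : ℕ) := by
        intro k
        rw [← h3, star_mul', star_pow, star_star, mul_pow]
        ring
      rw [Finset.sum_congr rfl fun k _ => h5 k, ← Finset.mul_sum, node_geom hN i j]
      have hN' : (N : ℂ) ≠ 0 := by exact_mod_cast hN.ne'
      by_cases hij : i = j
      · subst hij; simp [hN']
      · rw [if_neg hij, one_apply_ne (by simp [hij])]; simp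
    · rw [one_apply_ne (by simp [hab])]
      simp [hab]
  · intro c _ hc
    simp [hc]
  · simp

lemma tvec_dft {N : ℕ} (b : m) (j : Fin N) (t : ℝ) :
    tvec (fun x => dft m N x (b, j)) t = Pi.single b (dk N (node N j) t) := by
  funext a
  unfold tvec dft dk
  simp only [of_apply]
  by_cases hab : a = b
  · subst hab
    rw [Pi.single_eq_same, Finset.mul_sum]
    refine Finset.sum_congr rfl fun k _ => ?_
    rw [if_pos rfl, mul_pow]
    ring
  · rw [Pi.single_eq_of_ne hab]
    simp [hab]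

/-- diagonal blocks of the Toeplitz matrix in the Fourier basis are Fejer means -/
lemma dft_block {P : ℝ → Matrix m m ℂ} (hP : Continuous P) {N : ℕ} (a b : m) (j : Fin N) :
    ((dft m N)ᴴ * toep P N * dft m N) (a, j) (b, j) =
      ((2 * π : ℝ) : ℂ)⁻¹ * ∫ t in (0 : ℝ)..2 * π,
        ((‖dk N (node N j) t‖ ^ 2 : ℝ) : ℂ) * P t a b := by
  rw [mul_mul_apply]
  have h1 : (dft m N)ᴴ (a, j) = star (fun x => dft m N x (a, j)) := by
    funext x
    simp [conjTranspose_apply]
  have h2 : (dft m N)ᵀ (b, j) = (fun x => dft m N x (b, j)) := by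
    funext x
    simp [transpose_apply]
  rw [h1, h2, toep_form hP]
  congr 2
  funext t
  rw [tvec_dft, tvec_dft]
  have h3 : ((‖dk N (node N j) t‖ ^ 2 : ℝ) : ℂ) = star (dk N (node N j) t) * dk N (node N j) t := by
    have := Complex.mul_conj (dk N (node N j) t)
    rw [Complex.normSq_eq_norm_sq] at this
    rw [← this, mul_comm]
    rfl
  rw [h3, ← Pi.single_star, single_dotProduct, mulVec_single]
  simp
  ring

lemma blockDiagonal_posDef {o : Type*} [Fintype o] [DecidableEq o] {M : o → Matrix m m ℂ}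
    (hM : ∀ j, (M j).PosDef) : (blockDiagonal M).PosDef := by
  have hherm : (blockDiagonal M).IsHermitian := by
    unfold IsHermitian
    rw [blockDiagonal_conjTranspose]
    congr 1
    funext j
    exact (hM j).1
  refine PosDef.of_dotProduct_mulVec_pos hherm ?_
  intro x hx
  have h1 : star x ⬝ᵥ blockDiagonal M *ᵥ x =
      ∑ j, star (fun a => x (a, j)) ⬝ᵥ M j *ᵥ (fun a => x (a, j)) := by
    simp only [dotProduct, mulVec, Fintype.sum_prod_type, blockDiagonal_apply, Pi.star_apply]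
    rw [Finset.sum_comm]
    refine Finset.sum_congr rfl fun j _ => Finset.sum_congr rfl fun a _ => ?_
    congr 1
    refine Finset.sum_congr rfl fun b _ => ?_
    rw [Finset.sum_eq_single j]
    · simp
    · intro i _ hi
      simp [Ne.symm hi]
    · simp
  rw [h1]
  obtain ⟨⟨a, j⟩, haj⟩ : ∃ p, x p ≠ 0 := by
    by_contra hcon
    push Not at hcon
    exact hx (funext hcon)
  refine Finset.sum_pos' (fun i _ => (hM i).posSemidef.dotProduct_mulVec_nonneg _) ⟨j, Finset.mem_univ _, ?_⟩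
  refine (hM j).dotProduct_mulVec_pos ?_
  intro h
  exact haj (congrFun h a)

lemma blockDiagonal_inv {o : Type*} [Fintype o] [DecidableEq o] {M : o → Matrix m m ℂ}
    (hM : ∀ j, (M j).PosDef) : (blockDiagonal M)⁻¹ = blockDiagonal fun j => (M j)⁻¹ := by
  apply Matrix.inv_eq_right_inv
  rw [← blockDiagonal_mul]
  have : (fun k => M k * (M k)⁻¹) = 1 := by
    funext k
    exact Matrix.mul_nonsing_inv _ ((Matrix.isUnit_iff_isUnit_det _).1 (hM k).isUnit)
  rw [this, blockDiagonal_one]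

lemma trace_blockDiagonal_mul {o : Type*} [Fintype o] [DecidableEq o] (M : o → Matrix m m ℂ)
    (T : Matrix (m × o) (m × o) ℂ) :
    (blockDiagonal M * T).trace = ∑ j, ∑ a, ∑ b, M j a b * T (b, j) (a, j) := by
  simp only [trace, diag_apply, mul_apply, Fintype.sum_prod_type, blockDiagonal_apply]
  rw [Finset.sum_comm]
  refine Finset.sum_congr rfl fun j _ => Finset.sum_congr rfl fun a _ =>
    Finset.sum_congr rfl fun b _ => ?_
  rw [Finset.sum_eq_single j]
  · simp
  · intro i _ hi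
    simp [Ne.symm hi]
  · simp

end Vale.P272.H696
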